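import Mathlib
import Vale.Agent.P054.Core

open Finset

namespace Vale.Agent.Results.P054.GridDense

open scoped Classical in
/-- The set of distances between distinct points of `P`. -/
noncomputable def distSet {d : ℕ} (P : Finset (EuclideanSpace ℝ (Fin d))) : Finset ℝ :=
  P.offDiag.image (fun pq => dist pq.1 pq.2)

open scoped Classical in
/-- The set of distances from `p` to the points of `P` other than `p`. -/
noncomputable def pinnedDistSet {d : ℕ} (P : Finset (EuclideanSpace ℝ (Fin d)))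
    (p : EuclideanSpace ℝ (Fin d)) : Finset ℝ :=
  (P.erase p).image (fun q => dist p q)

/-- `x` is a point of the integer grid `{1, ..., t}^d`. -/
def InGrid {d : ℕ} (t : ℕ) (x : EuclideanSpace ℝ (Fin d)) : Prop :=
  ∀ i, ∃ m : ℕ, 1 ≤ m ∧ m ≤ t ∧ x i = m

lemma card_le_pow {d t : ℕ} (P : Finset (EuclideanSpace ℝ (Fin d)))
    (hP : ∀ x ∈ P, InGrid t x) : P.card ≤ t ^ d := by
  classical
  have h : (Fintype.piFinset (fun _ : Fin d => Icc 1 t)).card = t ^ d := by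
    rw [Fintype.card_piFinset]
    simp
  rw [← h]
  apply card_le_card_of_injOn (fun q i => ⌊q i⌋₊)
  · intro q hq
    rw [mem_coe, Fintype.mem_piFinset]
    intro i
    obtain ⟨m, h1, h2, hm⟩ := hP q hq i
    simp only [hm, Nat.floor_natCast, mem_Icc]
    exact ⟨h1, h2⟩
  · intro q hq q' hq' hqq
    ext i
    obtain ⟨m, _, _, hm⟩ := hP q hq i
    obtain ⟨m', _, _, hm'⟩ := hP q' hq' i
    have := congrFun hqq i
    simp only [hm, hm', Nat.floor_natCast] at this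
    rw [hm, hm', this]

lemma pinned_subset {d : ℕ} (P : Finset (EuclideanSpace ℝ (Fin d)))
    (p : EuclideanSpace ℝ (Fin d)) (hp : p ∈ P) : pinnedDistSet P p ⊆ distSet P := by
  classical
  intro r hr
  unfold pinnedDistSet at hr
  unfold distSet
  rw [mem_image] at hr ⊢
  obtain ⟨q, hq, rfl⟩ := hr
  rw [mem_erase] at hq
  exact ⟨(p, q), by rw [mem_offDiag]; exact ⟨hp, hq.2, fun h => hq.1 h.symm⟩, rfl⟩

lemma pinned_bound (j t : ℕ) (P : Finset (EuclideanSpace ℝ (Fin (3 + j))))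
    (hP : ∀ x ∈ P, InGrid t x) (h2 : 2 ≤ P.card) (p : EuclideanSpace ℝ (Fin (3 + j)))
    (hp : InGrid t p) :
    (P.card : ℝ)^2 ≤ (4 * 47088 * 9^j) * ((t:ℝ)^(2 * (3 + j) - 2) * (pinnedDistSet P p).card) := by
  classical
  have hcore := Vale.Agent.P054.pinned_core j t (P.erase p) p
    (fun x hx => hP x (mem_of_mem_erase hx)) hp
  have hcard : P.card ≤ 2 * (P.erase p).card := by
    have := pred_card_le_card_erase (s := P) (a := p)
    omega
  have ht : 1 ≤ t := by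
    obtain ⟨m, h1, h2, _⟩ := hp ⟨0, by omega⟩
    omega
  have ht' : (1:ℝ) ≤ t := by exact_mod_cast ht
  have e1 : ((P.card : ℝ))^2 ≤ 4 * ((P.erase p).card : ℝ)^2 := by
    have : (P.card : ℝ) ≤ 2 * ((P.erase p).card : ℝ) := by exact_mod_cast hcard
    have h0 : (0:ℝ) ≤ P.card := by positivity
    nlinarith
  have e2 : ((P.erase p).card : ℝ)^2
      ≤ ((pinnedDistSet P p).card : ℝ) * (47088 * (t:ℝ)^4 * ((2 * (t:ℝ) + 1)^2)^j) := by
    unfold pinnedDistSet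
    exact_mod_cast hcore
  have e3 : ((2 * (t:ℝ) + 1)^2)^j ≤ 9^j * ((t:ℝ)^2)^j := by
    rw [← mul_pow]
    apply pow_le_pow_left₀ (by positivity)
    nlinarith
  have e4 : (t:ℝ)^(2 * (3 + j) - 2) = (t:ℝ)^4 * ((t:ℝ)^2)^j := by
    rw [← pow_mul, ← pow_add]
    congr 1
    omega
  rw [e4]
  have hn : (0:ℝ) ≤ ((pinnedDistSet P p).card : ℝ) := by positivity
  calc ((P.card : ℝ))^2 ≤ 4 * ((P.erase p).card : ℝ)^2 := e1
    _ ≤ 4 * (((pinnedDistSet P p).card : ℝ) * (47088 * (t:ℝ)^4 * ((2 * (t:ℝ) + 1)^2)^j)) := by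
        gcongr
    _ ≤ 4 * (((pinnedDistSet P p).card : ℝ) * (47088 * (t:ℝ)^4 * (9^j * ((t:ℝ)^2)^j))) := by
        gcongr
    _ = _ := by ring

/-- For every `d ≥ 3` the distinct-distances conjecture holds, in pinned form and with a
polynomial dependence on the density, for all subsets of the integer grid `{1, ..., t}^d`. -/
theorem result (d : ℕ) (hd : 3 ≤ d) :
    ∃ c : ℝ, 0 < c ∧ ∀ (t : ℕ) (P : Finset (EuclideanSpace ℝ (Fin d))),
      (∀ x ∈ P, InGrid t x) → 2 ≤ P.card →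
      (∀ p, InGrid t p →
        c * (P.card : ℝ)^2 ≤ (t:ℝ)^(2 * d - 2) * (pinnedDistSet P p).card) ∧
      (∀ δ : ℝ, 0 < δ → δ * (t:ℝ)^d ≤ P.card →
        (∀ p ∈ P, c * δ^2 * (P.card : ℝ)^((2:ℝ) / d) ≤ (pinnedDistSet P p).card) ∧
        c * δ^2 * (P.card : ℝ)^((2:ℝ) / d) ≤ (distSet P).card) := by
  obtain ⟨j, rfl⟩ := Nat.exists_eq_add_of_le hd
  have hC : (0:ℝ) < 4 * 47088 * 9^j := by positivity
  refine ⟨(4 * 47088 * 9^j)⁻¹, by positivity, ?_⟩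
  intro t P hP h2
  have part1 : ∀ p, InGrid t p → (4 * 47088 * 9^j : ℝ)⁻¹ * (P.card : ℝ)^2
      ≤ (t:ℝ)^(2 * (3 + j) - 2) * (pinnedDistSet P p).card := by
    intro p hp
    have := pinned_bound j t P hP h2 p hp
    rw [inv_mul_le_iff₀ hC]
    exact this
  refine ⟨part1, ?_⟩
  intro δ hδ hdens
  have hpin : ∀ p ∈ P, (4 * 47088 * 9^j : ℝ)⁻¹ * δ^2 * (P.card : ℝ)^((2:ℝ) / ((3 + j : ℕ):ℝ))
      ≤ (pinnedDistSet P p).card := by
    intro p hp
    have h1 := part1 p (hP p hp)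
    have ht : 1 ≤ t := by
      obtain ⟨m, h1, h2, _⟩ := hP p hp ⟨0, by omega⟩
      omega
    have ht' : (0:ℝ) < t := by exact_mod_cast ht
    have hle : (P.card : ℝ) ≤ (t:ℝ)^(3 + j) := by exact_mod_cast card_le_pow P hP
    have hpow : (P.card : ℝ)^((2:ℝ) / ((3 + j : ℕ):ℝ)) ≤ (t:ℝ)^2 := by
      have hd0 : (0:ℝ) < ((3 + j : ℕ):ℝ) := by positivity
      calc (P.card : ℝ)^((2:ℝ) / ((3 + j : ℕ):ℝ))
          ≤ ((t:ℝ)^(3 + j))^((2:ℝ) / ((3 + j : ℕ):ℝ)) := by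
            apply Real.rpow_le_rpow (by positivity) hle (by positivity)
        _ = (t:ℝ)^2 := by
            rw [← Real.rpow_natCast, ← Real.rpow_mul ht'.le]
            rw [mul_div_cancel₀ _ hd0.ne']
            exact Real.rpow_ofNat _ 2
    have hsq : δ^2 * ((t:ℝ)^(3 + j))^2 ≤ (P.card : ℝ)^2 := by
      rw [← mul_pow]
      apply pow_le_pow_left₀ (by positivity) hdens
    have e5 : ((t:ℝ)^(3 + j))^2 = (t:ℝ)^(2 * (3 + j) - 2) * (t:ℝ)^2 := by
      rw [← pow_mul, ← pow_add]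
      congr 1
      omega
    have hpos : (0:ℝ) < (t:ℝ)^(2 * (3 + j) - 2) := by positivity
    have hinv : (0:ℝ) < (4 * 47088 * 9^j : ℝ)⁻¹ := by positivity
    have h3 : (t:ℝ)^(2 * (3 + j) - 2) * ((4 * 47088 * 9^j : ℝ)⁻¹ * δ^2 * (t:ℝ)^2)
        ≤ (t:ℝ)^(2 * (3 + j) - 2) * (pinnedDistSet P p).card := by
      calc (t:ℝ)^(2 * (3 + j) - 2) * ((4 * 47088 * 9^j : ℝ)⁻¹ * δ^2 * (t:ℝ)^2)
          = (4 * 47088 * 9^j : ℝ)⁻¹ * (δ^2 * ((t:ℝ)^(3 + j))^2) := by rw [e5]; ring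
        _ ≤ (4 * 47088 * 9^j : ℝ)⁻¹ * (P.card : ℝ)^2 := by gcongr
        _ ≤ _ := h1
    have h4 := le_of_mul_le_mul_left h3 hpos
    calc (4 * 47088 * 9^j : ℝ)⁻¹ * δ^2 * (P.card : ℝ)^((2:ℝ) / ((3 + j : ℕ):ℝ))
        ≤ (4 * 47088 * 9^j : ℝ)⁻¹ * δ^2 * (t:ℝ)^2 := by gcongr
      _ ≤ _ := h4
  refine ⟨hpin, ?_⟩
  obtain ⟨p, hp⟩ : P.Nonempty := by
    rw [← card_pos]; omega
  refine (hpin p hp).trans ?_
  exact_mod_cast card_le_card (pinned_subset P p hp)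

end Vale.Agent.Results.P054.GridDense
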