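import Mathlib
import Vale.Agent.Results.P054.GridDense

namespace Vale.Agent.Results.P054.H_DenseGridSubsets

open Vale.Agent.Results.P054.GridDense

/-- For every `d ≥ 3` there is `c > 0` such that every subset `P` of the integer grid
`{1, ..., t}^d` with at least two points and density at least `δ` determines at least
`c δ^2 |P|^(2/d)` distinct distances. -/
theorem result (d : ℕ) (hd : 3 ≤ d) :
    ∃ c : ℝ, 0 < c ∧ ∀ (t : ℕ) (P : Finset (EuclideanSpace ℝ (Fin d))),
      (∀ x ∈ P, InGrid t x) → 2 ≤ P.card →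
      ∀ δ : ℝ, 0 < δ → δ * (t:ℝ)^d ≤ P.card →
        c * δ^2 * (P.card : ℝ)^((2:ℝ) / d) ≤ (distSet P).card := by
  obtain ⟨c, hc, h⟩ := Vale.Agent.Results.P054.GridDense.result d hd
  exact ⟨c, hc, fun t P hP h2 δ hδ hden => ((h t P hP h2).2 δ hδ hden).2⟩

end Vale.Agent.Results.P054.H_DenseGridSubsets
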